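import Vale.Agent.P174u.Final3

/-!
# P174: systems with coefficients in a subgroup
-/

namespace P174u

universe u v w

open Monoid

section

variable {G : Type u} [Group G] (S : Subgroup G) {H : Type u} [Group H]

/-- the two factors of the amalgam -/
def Fac2 (G H : Type u) : Bool → Type u
  | true => G
  | false => H

instance (b : Bool) : Group (Fac2 G H b) :=
  match b with
  | true => (inferInstance : Group G)
  | false => (inferInstance : Group H)

/-- the embeddings of the base -/
def facMap2 (φ : S →* H) : (b : Bool) → S →* Fac2 G H b
  | true => S.subtype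
  | false => φ

theorem facMap2_injective {φ : S →* H} (hφ : Function.Injective φ) (b : Bool) :
    Function.Injective (facMap2 S φ b) := by
  cases b
  · exact hφ
  · exact S.subtype_injective

theorem SolvableOver.amal {κ ι : Type} (w : ι → Wd S κ) (h : SolvableOver w) :
    SolvableOver (fun i => Coprod.map S.subtype (MonoidHom.id (FreeGroup κ)) (w i)) := by
  obtain ⟨H, _, φ, x, hφ, hx⟩ := h
  let R := PushoutI (facMap2 S φ)
  let j1 : G →* R := PushoutI.of (φ := facMap2 S φ) true
  let j2 : H →* R := PushoutI.of (φ := facMap2 S φ) false
  have hj : ∀ s : S, j1 s = j2 (φ s) := by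
    intro s
    have h1 : j1 s = PushoutI.base (facMap2 S φ) s :=
      PushoutI.of_apply_eq_base (facMap2 S φ) true s
    have h2 : j2 (φ s) = PushoutI.base (facMap2 S φ) s :=
      PushoutI.of_apply_eq_base (facMap2 S φ) false s
    rw [h1, h2]
  have hj1 : Function.Injective j1 :=
    PushoutI.of_injective (facMap2_injective S hφ) true
  refine ⟨R, inferInstance, j1, fun k => j2 (x k), hj1, fun i => ?_⟩
  rw [ev_map]
  have h3 : j1.comp S.subtype = j2.comp φ := by
    ext s
    exact hj s
  rw [h3, ← comp_ev_apply, hx i, map_one]

end

theorem fin_coef {G : Type u} [Group G] (S : Subgroup G) (hS : Vale.Agent.P174.Howie S) :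
    Vale.Agent.P174u.HowieWith S :=
  fun m n w hw => SolvableOver.amal S w (hS m n w hw)

end P174u
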