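import Vale.Agent.P174u.Dpc

/-!
# P174: pushing systems forward along injective homomorphisms
-/

namespace P174u

universe u v w

open Monoid

theorem SolvableOver.of_map {κ ι : Type} {G G' : Type u} [Group G] [Group G'] (c : G →* G')
    (hc : Function.Injective c) (w : ι → Wd G κ)
    (h : SolvableOver (fun i => Coprod.map c (MonoidHom.id (FreeGroup κ)) (w i))) :
    SolvableOver w := by
  obtain ⟨H, _, φ, x, hφ, hx⟩ := h
  refine ⟨H, inferInstance, φ.comp c, x, ?_, fun i => ?_⟩
  · exact hφ.comp hc
  · rw [← ev_map]
    exact hx i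

end P174u
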