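import Vale.Agent.P174u.Bridge
import Vale.Agent.P174u.LDefs

/-!
# P174: the final forms
-/

namespace P174u

universe u v w

open Vale.Agent.P174u (MapsOnto LocallyOnto)

theorem fin_local {G : Type u} [Group G]
    (hG : ∀ S : Subgroup G, S.FG → Vale.Agent.P174.Howie S ∨ MapsOnto S (Multiplicative ℤ)) :
    Vale.Agent.P174.Howie G := by
  rw [howie_eq]
  apply local_onto
  intro S hS
  rcases hG S hS with h | h
  · exact Or.inl (howie_eq.1 h)
  · exact Or.inr h

theorem fin_localMod {p : ℕ} (hp : p.Prime) {G : Type u} [Group G]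
    (hG : ∀ S : Subgroup G, S.FG → Vale.Agent.P174.HowieMod p S ∨
      MapsOnto S (Multiplicative (ZMod p))) : Vale.Agent.P174.HowieMod p G := by
  rw [howieMod_eq hp]
  apply localMod_onto hp
  intro S hS
  rcases hG S hS with h | h
  · exact Or.inl ((howieMod_eq hp).1 h)
  · exact Or.inr h

/-- alternatives for a finitely generated subgroup of an extension -/
theorem fin_alt {T : Type w} {G : Type u} {Q : Type v} [Group T] [Group G] [Group Q] (π : G →* Q)
    (hQ : LocallyOnto T Q) (S : Subgroup G) (hS : S.FG) :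
    (∃ e : S →* π.ker, Function.Injective e) ∨ MapsOnto S T := by
  by_cases h : S.map π = ⊥
  · left
    have h1 : S ≤ π.ker := by
      intro s hs
      have h2 : π s ∈ S.map π := Subgroup.mem_map_of_mem _ hs
      rw [h, Subgroup.mem_bot] at h2
      exact h2
    exact ⟨Subgroup.inclusion h1, Subgroup.inclusion_injective h1⟩
  · right
    have hFG : (S.map π).FG := by
      rw [Subgroup.fg_iff] at hS ⊢
      obtain ⟨s, hs1, hs2⟩ := hS
      refine ⟨π '' s, ?_, hs2.image _⟩
      rw [← hs1, MonoidHom.map_closure]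
    obtain ⟨f, hf⟩ := hQ _ hFG h
    exact ⟨f.comp (π.subgroupMap S), hf.comp (π.subgroupMap_surjective S)⟩

theorem fin_ext {G : Type u} {Q : Type v} [Group G] [Group Q] (π : G →* Q)
    (hQ : LocallyOnto (Multiplicative ℤ) Q) (hN : Vale.Agent.P174.Howie π.ker) :
    Vale.Agent.P174.Howie G := by
  apply fin_local
  intro S hS
  rcases fin_alt π hQ S hS with ⟨e, he⟩ | h
  · exact Or.inl (howie_eq.2 ((howie_eq.1 hN).of_injective e he))
  · exact Or.inr h

theorem fin_extMod {p : ℕ} (hp : p.Prime) {G : Type u} {Q : Type v} [Group G] [Group Q] (π : G →* Q)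
    (hQ : LocallyOnto (Multiplicative (ZMod p)) Q) (hN : Vale.Agent.P174.HowieMod p π.ker) :
    Vale.Agent.P174.HowieMod p G := by
  apply fin_localMod hp
  intro S hS
  rcases fin_alt π hQ S hS with ⟨e, he⟩ | h
  · exact Or.inl ((howieMod_eq hp).2 (((howieMod_eq hp).1 hN).of_injective e he))
  · exact Or.inr h

theorem fin_iff {G : Type u} [Group G] :
    Vale.Agent.P174.Howie G ↔
      ∀ M : ℕ, ∃ p, M < p ∧ p.Prime ∧ Vale.Agent.P174.HowieMod p G := by
  rw [howie_eq, howie_iff_mod]
  constructor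
  · intro h M
    obtain ⟨p, h1, h2, h3⟩ := h M
    exact ⟨p, h1, h2, (howieMod_eq h2).2 h3⟩
  · intro h M
    obtain ⟨p, h1, h2, h3⟩ := h M
    exact ⟨p, h1, h2, (howieMod_eq h2).1 h3⟩

end P174u
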