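import Vale.Agent.P174u.Comm

/-!
# P174: an unconditional criterion
-/

namespace P174u

universe u v w

open Vale.Agent.P174u (MapsOnto LocallyOnto IsComm)

theorem fin_comm {G : Type u} [Group G]
    (hG : ∀ S : Subgroup G, S.FG → IsComm S ∨ MapsOnto S (Multiplicative ℤ)) :
    Vale.Agent.P174.Howie G := by
  apply fin_local
  intro S hS
  rcases hG S hS with h | h
  · exact Or.inl (howie_eq.2 (howie_comm h))
  · exact Or.inr h

theorem fin_commMod {p : ℕ} (hp : p.Prime) {G : Type u} [Group G]
    (hG : ∀ S : Subgroup G, S.FG → IsComm S ∨ MapsOnto S (Multiplicative (ZMod p))) :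
    Vale.Agent.P174.HowieMod p G := by
  apply fin_localMod hp
  intro S hS
  rcases hG S hS with h | h
  · exact Or.inl ((howieMod_eq hp).2 ((howie_comm h).howieMod hp))
  · exact Or.inr h

theorem fin_commExt {G : Type u} {Q : Type v} [Group G] [Group Q] (π : G →* Q)
    (hQ : LocallyOnto (Multiplicative ℤ) Q) (hN : IsComm π.ker) :
    Vale.Agent.P174.Howie G :=
  fin_ext π hQ (howie_eq.2 (howie_comm hN))

end P174u
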