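import Vale.Agent.P174u.Inj

/-!
# P174: lifting an expression to the kernel of a homomorphism
-/

namespace P174u

universe u v w

open Monoid

section

variable {A : Type u} {U C : Type} [Group A] [Group C] (θ : A →* C) (s : C → A) (hs : ∀ x, θ (s x) = x)
  (q : U → C)

include hs in
theorem ks_mem (a : A) (x : C) : (s x)⁻¹ * a * s ((θ a)⁻¹ * x) ∈ θ.ker := by
  rw [MonoidHom.mem_ker, map_mul, map_mul, map_inv, hs, hs]
  group

/-- the Kaloujnine-Krasner embedding for a chosen section -/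
def ks : A →* θ.ker ≀ᵣ C where
  toFun a := ⟨fun x => ⟨(s x)⁻¹ * a * s ((θ a)⁻¹ * x), ks_mem θ s hs a x⟩, θ a⟩
  map_one' := by
    apply RegularWreathProduct.ext
    · funext x
      apply Subtype.ext
      show (s x)⁻¹ * 1 * s ((θ 1)⁻¹ * x) = 1
      simp
    · exact map_one θ
  map_mul' g h := by
    apply RegularWreathProduct.ext
    · funext x
      apply Subtype.ext
      show (s x)⁻¹ * (g * h) * s ((θ (g * h))⁻¹ * x) =
        ((s x)⁻¹ * g * s ((θ g)⁻¹ * x)) *
          ((s ((θ g)⁻¹ * x))⁻¹ * h * s ((θ h)⁻¹ * ((θ g)⁻¹ * x)))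
      rw [map_mul, mul_inv_rev, mul_assoc (θ h)⁻¹ (θ g)⁻¹ x]
      group
    · exact map_mul θ g h

/-- all coordinates of a word -/
def Ps : Wd A U →* (Wd θ.ker (U × C)) ≀ᵣ C :=
  (Phi q).comp (Coprod.map (ks θ s hs) (MonoidHom.id (FreeGroup U)))

theorem Ps_right (u : Wd A U) : (Ps θ s hs q u).right = ev θ q u := by
  show (Phi q _).right = _
  rw [Phi_right, ev_map]
  rfl

theorem Ps_inl (a : A) (x : C) :
    (Ps θ s hs q (Coprod.inl a)).left x = Coprod.inl ((ks θ s hs a).left x) := by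
  show (Phi q (Coprod.map (ks θ s hs) (MonoidHom.id (FreeGroup U)) (Coprod.inl a))).left x = _
  rw [Coprod.map_apply_inl]
  show (ev (wmap Coprod.inl) (uu q) (Coprod.inl (ks θ s hs a))).left x = _
  rw [ev_inl]
  rfl

theorem Ps_inr (k : U) : Ps θ s hs q (Coprod.inr (FreeGroup.of k)) = uu q k := by
  show Phi q (Coprod.map (ks θ s hs) (MonoidHom.id (FreeGroup U)) (Coprod.inr (FreeGroup.of k))) = _
  rw [Coprod.map_apply_inr]
  show ev (wmap Coprod.inl) (uu q) (Coprod.inr (FreeGroup.of k)) = _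
  rw [ev_of]

/-- lift of a letter -/
def lf : Lt A U → C → Lt θ.ker (U × C)
  | Sum.inl a, x => Sum.inl ((ks θ s hs a).left x)
  | Sum.inr (u, true), x => Sum.inr ((u, x), true)
  | Sum.inr (u, false), x => Sum.inr ((u, q u * x), false)

/-- lift of a list of letters -/
def lfl : List (Lt A U) → C → List (Lt θ.ker (U × C))
  | [], _ => []
  | y :: l, x => lf θ s hs q y x :: lfl l ((ev θ q (lv y))⁻¹ * x)

theorem lv_lf (y : Lt A U) (x : C) : lv (lf θ s hs q y x) = (Ps θ s hs q (lv y)).left x := by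
  rcases y with a | ⟨u, b⟩
  · show Coprod.inl _ = _
    rw [lv, Ps_inl]
  · cases b
    · show (Coprod.inr (FreeGroup.of (u, q u * x)))⁻¹ = _
      rw [lv, map_inv, Ps_inr]
      rfl
    · show Coprod.inr (FreeGroup.of (u, x)) = _
      rw [lv, Ps_inr]
      rfl

theorem pv_lfl (l : List (Lt A U)) (x : C) :
    pv (lfl θ s hs q l x) = (Ps θ s hs q (pv l)).left x := by
  induction l generalizing x with
  | nil =>
    show pv [] = _
    rw [pv_nil, pv_nil, map_one]
    rfl
  | cons y l ih =>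
    show pv (lf θ s hs q y x :: lfl θ s hs q l ((ev θ q (lv y))⁻¹ * x)) = _
    rw [pv_cons, pv_cons, map_mul, ih, lv_lf, ← Ps_right θ s hs q (lv y)]
    rfl

theorem cost_lf (y : Lt A U) (x : C) : cost (lf θ s hs q y x) ≤ cost y := by
  rcases y with a | ⟨u, b⟩
  · show cost (Sum.inl ((ks θ s hs a).left x) : Lt θ.ker (U × C)) ≤ _
    simp only [cost]
    by_cases h : a = 1
    · subst h
      have : (ks θ s hs 1).left x = 1 := by rw [map_one]; rfl
      rw [if_pos this]
      exact Nat.zero_le _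
    · rw [if_neg h]
      split_ifs <;> simp
  · cases b <;> exact Nat.zero_le _

theorem mu_lfl (l : List (Lt A U)) (x : C) : mu (lfl θ s hs q l x) ≤ mu l := by
  induction l generalizing x with
  | nil => exact le_refl _
  | cons y l ih =>
    show mu (lf θ s hs q y x :: lfl θ s hs q l ((ev θ q (lv y))⁻¹ * x)) ≤ _
    rw [mu_cons, mu_cons]
    exact add_le_add (cost_lf θ s hs q y x) (ih _)

end

section

variable {A : Type u} {U C : Type} [Group A] [Group C] (θ : A →* C) (q : U → C)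

theorem mu_lfl_lt (a : A) (ha : a ≠ 1) (l : List (Lt A U)) (hl : Sum.inl a ∈ l) (x : C) :
    ∃ x0 : C, ∀ (s : C → A) (hs : ∀ x, θ (s x) = x),
      (s x0)⁻¹ * a * s ((θ a)⁻¹ * x0) = 1 → mu (lfl θ s hs q l x) < mu l := by
  induction l generalizing x with
  | nil => simp at hl
  | cons y l ih =>
    rcases List.mem_cons.1 hl with h | h
    · subst h
      refine ⟨x, fun s hs h1 => ?_⟩
      show mu (lf θ s hs q (Sum.inl a) x :: lfl θ s hs q l ((ev θ q (lv (Sum.inl a)))⁻¹ * x)) < _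
      rw [mu_cons, mu_cons]
      have h2 : cost (lf θ s hs q (Sum.inl a) x) = 0 := by
        show cost (Sum.inl ((ks θ s hs a).left x) : Lt θ.ker (U × C)) = 0
        simp only [cost]
        apply if_pos
        apply Subtype.ext
        exact h1
      have h3 : cost (Sum.inl a : Lt A U) = 1 := by
        simp only [cost]
        exact if_neg ha
      have h4 := mu_lfl θ s hs q l ((ev θ q (lv (Sum.inl a)))⁻¹ * x)
      omega
    · obtain ⟨x0, hx0⟩ := ih h ((ev θ q (lv y))⁻¹ * x)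
      refine ⟨x0, fun s hs h1 => ?_⟩
      show mu (lf θ s hs q y x :: lfl θ s hs q l ((ev θ q (lv y))⁻¹ * x)) < _
      rw [mu_cons, mu_cons]
      exact add_lt_add_of_le_of_lt (cost_lf θ s hs q y x) (hx0 s hs h1)

end

section

variable {A : Type u} {U ι C : Type} [Group A] [Group C] (θ : A →* C) (s : C → A) (hs : ∀ x, θ (s x) = x)
  (q : U → C) (r : ι → List (Lt A U))

/-- lifted relators -/
def rl (t : ι × C) : List (Lt θ.ker (U × C)) := lfl θ s hs q (r t.1) t.2

/-- lifted factor -/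
def fl (e : List (Lt A U) × ι × Bool) : List (Lt θ.ker (U × C)) × (ι × C) × Bool :=
  (lfl θ s hs q e.1 1, (e.2.1, (ev θ q (pv e.1))⁻¹), e.2.2)

theorem fv_fl (hq : ∀ i, ev θ q (pv (r i)) = 1) (e : List (Lt A U) × ι × Bool) :
    fv (rl θ s hs q r) (fl θ s hs q e) = (Ps θ s hs q (fv r e)).left 1 ∧
      (Ps θ s hs q (fv r e)).right = 1 := by
  rcases e with ⟨l, i, b⟩
  have hr1 : (Ps θ s hs q (fv r (l, i, b))).right = 1 := by
    rw [Ps_right]
    simp only [fv, map_mul, map_sg, map_inv, hq]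
    cases b <;> simp [sg]
  refine ⟨?_, hr1⟩
  show pv (lfl θ s hs q l 1) * sg (pv (lfl θ s hs q (r i) (ev θ q (pv l))⁻¹)) b *
    (pv (lfl θ s hs q l 1))⁻¹ = (Ps θ s hs q (pv l * sg (pv (r i)) b * (pv l)⁻¹)).left 1
  rw [pv_lfl, pv_lfl]
  have h0 : (Ps θ s hs q (pv (r i))).right = 1 := by rw [Ps_right, hq]
  have h1 : ∀ y : C, (Ps θ s hs q (sg (pv (r i)) b)).left y =
      sg ((Ps θ s hs q (pv (r i))).left y) b := by
    intro y
    cases b
    · show (Ps θ s hs q ((pv (r i))⁻¹)).left y = ((Ps θ s hs q (pv (r i))).left y)⁻¹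
      rw [map_inv]
      show ((Ps θ s hs q (pv (r i))).left ((Ps θ s hs q (pv (r i))).right * y))⁻¹ = _
      rw [h0, one_mul]
    · rfl
  have h2 : (Ps θ s hs q (sg (pv (r i)) b)).right = 1 := by
    rw [Ps_right, map_sg, hq]
    cases b <;> simp [sg]
  rw [map_mul, map_mul, map_inv]
  show _ = ((Ps θ s hs q (pv l)).left 1 *
      (Ps θ s hs q (sg (pv (r i)) b)).left ((Ps θ s hs q (pv l)).right⁻¹ * 1)) *
      ((Ps θ s hs q (pv l)).left ((Ps θ s hs q (pv l)).right *
        (((Ps θ s hs q (pv l)).right * (Ps θ s hs q (sg (pv (r i)) b)).right)⁻¹ * 1)))⁻¹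
  rw [h2, h1, Ps_right]
  simp

theorem vv_fl (hq : ∀ i, ev θ q (pv (r i)) = 1) (E : List (List (Lt A U) × ι × Bool)) :
    vv (rl θ s hs q r) (E.map (fl θ s hs q)) = (Ps θ s hs q (vv r E)).left 1 ∧
      (Ps θ s hs q (vv r E)).right = 1 := by
  have h3 : ∀ {A' : Type u} {U' ι' : Type} [Group A'] (r' : ι' → List (Lt A' U'))
      (e : List (Lt A' U') × ι' × Bool) l, vv r' (e :: l) = fv r' e * vv r' l := by
    intro A' U' ι' _ r' e l
    simp [vv]
  induction E with
  | nil =>
    constructor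
    · show (1 : Wd θ.ker (U × C)) = (Ps θ s hs q 1).left 1
      rw [map_one]
      rfl
    · show (Ps θ s hs q 1).right = 1
      rw [map_one]
      rfl
  | cons e E ih =>
    obtain ⟨h1, h2⟩ := fv_fl θ s hs q r hq e
    rw [List.map_cons, h3, h3, map_mul, h1, ih.1]
    constructor
    · show _ = (Ps θ s hs q (fv r e)).left 1 *
        (Ps θ s hs q (vv r E)).left ((Ps θ s hs q (fv r e)).right⁻¹ * 1)
      rw [h2]
      simp
    · show (Ps θ s hs q (fv r e)).right * (Ps θ s hs q (vv r E)).right = 1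
      rw [h2, ih.2, one_mul]

theorem mm_fl (E : List (List (Lt A U) × ι × Bool)) :
    mm (rl θ s hs q r) (E.map (fl θ s hs q)) =
      (E.map (fun e => mu (lfl θ s hs q e.1 1) +
        mu (lfl θ s hs q (r e.2.1) (ev θ q (pv e.1))⁻¹))).sum := by
  simp [mm, fl, rl, Function.comp_def]

end

end P174u
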