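import Vale.Agent.P174u.Rel

/-!
# P174: linear algebra of the exponent matrix
-/

namespace P174u

universe u v w

open Monoid

section

variable {G : Type u} {κ ι : Type} [Group G]

theorem chi_eq [Fintype κ] [DecidableEq κ] {p : ℕ} (y : κ → ZMod p) (u : Wd G κ) :
    Multiplicative.toAdd (chi y u) =
      ∑ k, ((Multiplicative.toAdd (expo u) k : ℤ) : ZMod p) * y k := by
  let L : (κ → ℤ) →+ ZMod p :=
    { toFun := fun v => ∑ k, ((v k : ℤ) : ZMod p) * y k
      map_zero' := by simp
      map_add' := by
        intro a b
        simp [add_mul, Finset.sum_add_distrib] }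
  have h : chi y = (AddMonoidHom.toMultiplicative L).comp (expo (G := G) (κ := κ)) := by
    apply wd_hom_ext
    · intro a
      simp [chi, expo]
    · intro k
      apply Multiplicative.toAdd.injective
      simp only [chi, ev_of, expo, MonoidHom.coe_comp, Function.comp_apply, Coprod.lift_apply_inr,
        FreeGroup.lift_apply_of, AddMonoidHom.toMultiplicative_apply_apply, toAdd_ofAdd]
      show y k = ∑ k', (((Pi.single k (1 : ℤ) : κ → ℤ) k' : ℤ) : ZMod p) * y k'
      rw [Finset.sum_eq_single k]
      · simp
      · intro b _ hb
        simp [Pi.single_eq_of_ne hb]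
      · simp
  rw [h]
  rfl

theorem dp_iff [Fintype κ] [DecidableEq κ] [Fintype ι] {p : ℕ} [Fact p.Prime]
    (w : ι → Wd G κ) : Dp p w ↔ LinearIndependent (ZMod p)
      (fun i (k : κ) => ((Multiplicative.toAdd (expo (w i)) k : ℤ) : ZMod p)) := by
  classical
  let A : Matrix ι κ (ZMod p) := fun i k => ((Multiplicative.toAdd (expo (w i)) k : ℤ) : ZMod p)
  have h1 : Dp p w ↔ Function.Surjective A.mulVec := by
    constructor
    · intro h b
      obtain ⟨y, hy⟩ := h b
      refine ⟨y, ?_⟩
      funext i
      have := congrArg Multiplicative.toAdd (hy i)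
      rw [chi_eq] at this
      exact this
    · intro h b
      obtain ⟨y, hy⟩ := h b
      refine ⟨y, fun i => ?_⟩
      apply Multiplicative.toAdd.injective
      rw [chi_eq]
      exact congrFun hy i
  rw [h1]
  show _ ↔ LinearIndependent (ZMod p) A.row
  constructor
  · intro h
    rw [← Matrix.vecMul_injective_iff]
    intro c c' hc
    -- use the surjectivity
    have key : ∀ d : ι → ZMod p, Matrix.vecMul d A = 0 → d = 0 := by
      intro d hd
      funext i
      obtain ⟨y, hy⟩ := h (Pi.single i 1)
      have h2 : dotProduct d (A.mulVec y) = 0 := by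
        rw [Matrix.dotProduct_mulVec, hd]
        simp
      rw [hy] at h2
      simpa using h2
    have := key (c - c') (by
      rw [Matrix.sub_vecMul]
      exact sub_eq_zero.2 hc)
    exact sub_eq_zero.1 this
  · intro h
    have hr : A.rank = Fintype.card ι := h.rank_matrix
    have h2 : Module.finrank (ZMod p) (LinearMap.range A.mulVecLin) =
        Module.finrank (ZMod p) (ι → ZMod p) := by
      rw [Module.finrank_fintype_fun_eq_card]
      exact hr
    have h3 := Submodule.eq_top_of_finrank_eq h2
    intro b
    have : b ∈ LinearMap.range A.mulVecLin := by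
      rw [h3]
      trivial
    obtain ⟨y, hy⟩ := this
    exact ⟨y, hy⟩

end

end P174u
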