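import Vale.Agent.P174u.Defs

/-!
# P174: systems over finite p-groups (relative form)
-/

namespace P174u

universe u v w

open Monoid

section

variable {G : Type u} {H : Type v} {κ ι : Type} [Group G] [Group H]

@[simp] theorem ev_inl (φ : G →* H) (x : κ → H) (g : G) : ev φ x (Coprod.inl g) = φ g := rfl

@[simp] theorem ev_of (φ : G →* H) (x : κ → H) (k : κ) :
    ev φ x (Coprod.inr (FreeGroup.of k)) = x k := by
  show FreeGroup.lift x (FreeGroup.of k) = x k
  simp

theorem wd_hom_ext {f g : Wd G κ →* H} (h1 : ∀ a, f (Coprod.inl a) = g (Coprod.inl a))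
    (h2 : ∀ k, f (Coprod.inr (FreeGroup.of k)) = g (Coprod.inr (FreeGroup.of k))) : f = g := by
  apply Coprod.hom_ext
  · ext a
    exact h1 a
  · apply FreeGroup.ext_hom
    intro k
    exact h2 k

theorem comp_ev {H' : Type w} [Group H'] (f : H →* H') (φ : G →* H) (x : κ → H) :
    f.comp (ev φ x) = ev (f.comp φ) (fun k => f (x k)) := by
  apply wd_hom_ext
  · intro a
    simp
  · intro k
    simp

theorem comp_ev_apply {H' : Type w} [Group H'] (f : H →* H') (φ : G →* H) (x : κ → H)
    (u : Wd G κ) : f (ev φ x u) = ev (f.comp φ) (fun k => f (x k)) u := by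
  rw [← comp_ev]
  rfl

theorem ev_map {G' : Type w} [Group G'] (c : G →* G') (φ : G' →* H) (x : κ → H) (u : Wd G κ) :
    ev φ x (Coprod.map c (MonoidHom.id (FreeGroup κ)) u) = ev (φ.comp c) x u := by
  have : (ev φ x).comp (Coprod.map c (MonoidHom.id (FreeGroup κ))) = ev (φ.comp c) x := by
    apply wd_hom_ext
    · intro a
      simp
    · intro k
      simp
  rw [← this]
  rfl

theorem ev_mem {T : Subgroup H} {φ : G →* H} {x : κ → H} (h1 : ∀ g, φ g ∈ T) (h2 : ∀ k, x k ∈ T)
    (u : Wd G κ) : ev φ x u ∈ T := by
  have : (T.subtype).comp (ev (φ.codRestrict T h1) (fun k => ⟨x k, h2 k⟩)) = ev φ x := by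
    rw [comp_ev]
    rfl
  rw [← this]
  exact (ev (φ.codRestrict T h1) (fun k => (⟨x k, h2 k⟩ : T)) u).2

/-- the exponent functional -/
def chi {p : ℕ} (y : κ → ZMod p) : Wd G κ →* Multiplicative (ZMod p) :=
  ev 1 (fun k => Multiplicative.ofAdd (y k))

/-- dual form of `p`-nonsingularity -/
def Dp (p : ℕ) (w : ι → Wd G κ) : Prop :=
  ∀ b : ι → ZMod p, ∃ y : κ → ZMod p, ∀ i, chi y (w i) = Multiplicative.ofAdd (b i)

theorem Dp.map {G' : Type w} [Group G'] {p : ℕ} {w : ι → Wd G κ} (h : Dp p w) (c : G →* G') :
    Dp p (fun i => Coprod.map c (MonoidHom.id (FreeGroup κ)) (w i)) := by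
  intro b
  obtain ⟨y, hy⟩ := h b
  refine ⟨y, fun i => ?_⟩
  rw [← hy i]
  show ev 1 _ (Coprod.map c (MonoidHom.id (FreeGroup κ)) (w i)) = ev 1 _ (w i)
  rw [ev_map]
  rfl

/-- twisting a point by central elements -/
theorem ev_twist {P : Type} [Group P] {p : ℕ} (θ : Multiplicative (ZMod p) →* P)
    (hθ : ∀ a g, θ a * g = g * θ a) (φ : G →* P) (x : κ → P) (y : κ → ZMod p) (u : Wd G κ) :
    ev φ (fun k => x k * θ (Multiplicative.ofAdd (y k))) u = ev φ x u * θ (chi y u) := by
  let m : P × Multiplicative (ZMod p) →* P :=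
    { toFun := fun a => a.1 * θ a.2
      map_one' := by simp
      map_mul' := by
        intro a b
        simp only [Prod.fst_mul, Prod.snd_mul, map_mul]
        rw [mul_assoc a.1 b.1, ← mul_assoc b.1, ← hθ a.2 b.1]
        simp only [mul_assoc] }
  have h : m.comp ((ev φ x).prod (chi y)) =
      ev φ (fun k => x k * θ (Multiplicative.ofAdd (y k))) := by
    apply wd_hom_ext
    · intro a
      simp [m, chi]
    · intro k
      simp [m, chi]
  rw [← h]
  rfl

/-- relative solvability in finite `p`-groups -/
theorem rel_p {p : ℕ} (hp : p.Prime) (n : ℕ) : ∀ (P : Type) [Group P] [Finite P],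
    Nat.card P = n → IsPGroup p P → ∀ (K : Subgroup P) [K.Normal] (w : ι → Wd P κ), Dp p w →
    ∀ (x0 : κ → P) (b : ι → P), (∀ i, (b i)⁻¹ * ev (MonoidHom.id P) x0 (w i) ∈ K) →
    ∃ x : κ → P, (∀ k, (x k)⁻¹ * x0 k ∈ K) ∧ ∀ i, ev (MonoidHom.id P) x (w i) = b i := by
  induction n using Nat.strong_induction_on with
  | _ n ih =>
    intro P _ _ hcard hP K _ w hw x0 b hb
    have : Fact p.Prime := ⟨hp⟩
    by_cases hsub : Subsingleton P
    · exact ⟨x0, fun k => by simp, fun i => Subsingleton.elim _ _⟩
    · have : Nontrivial P := not_subsingleton_iff_nontrivial.1 hsub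
      -- a central element of order p
      have hcn : Nontrivial (Subgroup.center P) := hP.center_nontrivial
      have hcp : IsPGroup p (Subgroup.center P) := hP.to_subgroup _
      have hdvd : p ∣ Nat.card (Subgroup.center P) := by
        obtain ⟨k, hk⟩ := IsPGroup.iff_card.1 hcp
        have h1 : 1 < Nat.card (Subgroup.center P) := Finite.one_lt_card
        rw [hk] at h1 ⊢
        have : k ≠ 0 := by
          rintro rfl
          simp at h1
        exact dvd_pow_self p this
      obtain ⟨c, hc⟩ := exists_prime_orderOf_dvd_card' p hdvd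
      have hcp' : (c : P) ^ p = 1 := by
        have := pow_orderOf_eq_one c
        rw [hc] at this
        exact_mod_cast congrArg Subtype.val this
      have hord : orderOf (c : P) = p := by
        rw [Subgroup.orderOf_coe]
        exact hc
      have hcen : ∀ g : P, (c : P) * g = g * c := fun g => (Subgroup.mem_center_iff.1 c.2 g).symm
      let θ : Multiplicative (ZMod p) →* P := AddMonoidHom.toMultiplicativeLeft
        (ZMod.lift p ⟨(zmultiplesHom (Additive P)) (Additive.ofMul (c : P)), by
          simp only [zmultiplesHom_apply, natCast_zsmul]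
          rw [← ofMul_pow, hcp']
          rfl⟩)
      have hθ : ∀ z : ℤ, θ (Multiplicative.ofAdd (z : ZMod p)) = (c : P) ^ z := by
        intro z
        show Additive.toMul ((ZMod.lift p _) (z : ZMod p)) = _
        rw [ZMod.lift_coe]
        simp
      have hθs : ∀ a : Multiplicative (ZMod p), ∃ z : ℤ, θ a = (c : P) ^ z := by
        intro a
        obtain ⟨z, hz⟩ := ZMod.intCast_surjective (Multiplicative.toAdd a)
        refine ⟨z, ?_⟩
        rw [← hθ z, hz]
        rfl
      have hθc : ∀ a g, θ a * g = g * θ a := by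
        intro a g
        obtain ⟨z, hz⟩ := hθs a
        rw [hz]
        exact (Commute.zpow_left (hcen g) z)
      let Z : Subgroup P := Subgroup.zpowers (c : P)
      have hZn : Z.Normal := ⟨fun a ha g => by
        obtain ⟨z, rfl⟩ := Subgroup.mem_zpowers_iff.1 ha
        have : g * (c : P) ^ z * g⁻¹ = (c : P) ^ z := by
          rw [← (Commute.zpow_left (hcen g) z).eq]
          group
        rw [this]
        exact ha⟩
      have hZcard : Nat.card Z = p := by
        rw [Nat.card_zpowers, hord]
      -- the quotient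
      have hlt : Nat.card (P ⧸ Z) < n := by
        have h1 := Subgroup.card_eq_card_quotient_mul_card_subgroup Z
        rw [hcard, hZcard] at h1
        have h2 : 0 < Nat.card (P ⧸ Z) := Nat.card_pos
        rw [h1]
        exact lt_mul_of_one_lt_right h2 hp.one_lt
      let mk : P →* P ⧸ Z := QuotientGroup.mk' Z
      have hKm : (K.map mk).Normal := Subgroup.Normal.map inferInstance mk
        (QuotientGroup.mk'_surjective Z)
      obtain ⟨xq, hxq1, hxq2⟩ := ih (Nat.card (P ⧸ Z)) hlt (P ⧸ Z) rfl (hP.to_quotient Z)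
        (K.map mk) (fun i => Coprod.map mk (MonoidHom.id (FreeGroup κ)) (w i)) (hw.map mk)
        (fun k => mk (x0 k)) (fun i => mk (b i)) (by
          intro i
          rw [ev_map]
          have : ev ((MonoidHom.id (P ⧸ Z)).comp mk) (fun k => mk (x0 k)) (w i) =
              mk (ev (MonoidHom.id P) x0 (w i)) := by
            rw [comp_ev_apply]
            rfl
          rw [this, ← map_inv, ← map_mul]
          exact Subgroup.mem_map_of_mem mk (hb i))
      choose k0 hk0 hk0' using hxq1
      let x : κ → P := fun k => x0 k * (k0 k)⁻¹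
      have hx1 : ∀ k, mk (x k) = xq k := by
        intro k
        have h1 : mk (k0 k) = (xq k)⁻¹ * mk (x0 k) := hk0' k
        show mk (x0 k * (k0 k)⁻¹) = xq k
        rw [map_mul, map_inv, h1]
        group
      have hx2 : ∀ k, (x k)⁻¹ * x0 k ∈ K := by
        intro k
        have : (x k)⁻¹ * x0 k = k0 k := by
          show (x0 k * (k0 k)⁻¹)⁻¹ * x0 k = k0 k
          group
        rw [this]
        exact hk0 k
      have hx3 : ∀ i, (b i)⁻¹ * ev (MonoidHom.id P) x (w i) ∈ Z := by
        intro i
        have h1 := hxq2 i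
        rw [ev_map] at h1
        have h2 : mk (ev (MonoidHom.id P) x (w i)) = mk (b i) := by
          rw [comp_ev_apply, ← h1]
          congr 1
          congr 1
          funext k
          exact hx1 k
        exact QuotientGroup.eq.1 h2.symm
      have hx4 : ∀ i, (b i)⁻¹ * ev (MonoidHom.id P) x (w i) ∈ K := by
        intro i
        have h1 : (QuotientGroup.mk' K) (ev (MonoidHom.id P) x (w i)) =
            (QuotientGroup.mk' K) (ev (MonoidHom.id P) x0 (w i)) := by
          rw [comp_ev_apply, comp_ev_apply]
          congr 1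
          congr 1
          funext k
          exact QuotientGroup.eq.2 (hx2 k)
        have h2 : (ev (MonoidHom.id P) x (w i))⁻¹ * ev (MonoidHom.id P) x0 (w i) ∈ K :=
          QuotientGroup.eq.1 h1
        have h3 := K.mul_mem (hb i) (K.inv_mem h2)
        have e : (b i)⁻¹ * ev (MonoidHom.id P) x0 (w i) *
            ((ev (MonoidHom.id P) x (w i))⁻¹ * ev (MonoidHom.id P) x0 (w i))⁻¹ =
            (b i)⁻¹ * ev (MonoidHom.id P) x (w i) := by group
        rw [e] at h3
        exact h3
      by_cases hcK : (c : P) ∈ K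
      · choose z hz using fun i => Subgroup.mem_zpowers_iff.1 (hx3 i)
        obtain ⟨y, hy⟩ := hw (fun i => ((-(z i) : ℤ) : ZMod p))
        refine ⟨fun k => x k * θ (Multiplicative.ofAdd (y k)), fun k => ?_, fun i => ?_⟩
        · obtain ⟨a, ha⟩ := hθs (Multiplicative.ofAdd (y k))
          have h1 : θ (Multiplicative.ofAdd (y k)) ∈ K := by
            rw [ha]
            exact K.zpow_mem hcK a
          have e : (x k * θ (Multiplicative.ofAdd (y k)))⁻¹ * x0 k =
              (θ (Multiplicative.ofAdd (y k)))⁻¹ * ((x k)⁻¹ * x0 k) := by group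
          rw [e]
          exact K.mul_mem (K.inv_mem h1) (hx2 k)
        · rw [ev_twist θ hθc, hy i, hθ, zpow_neg, hz i]
          group
      · refine ⟨x, hx2, fun i => ?_⟩
        have hdis : Z ⊓ K = ⊥ := by
          have h1 : Nat.card (Z ⊓ K : Subgroup P) ∣ p := by
            rw [← hZcard]
            exact Subgroup.card_dvd_of_le inf_le_left
          rcases (Nat.dvd_prime hp).1 h1 with h2 | h2
          · exact Subgroup.card_eq_one.1 h2
          · exfalso
            have h3 : Z ⊓ K = Z := Subgroup.eq_of_le_of_card_ge inf_le_left (by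
              rw [h2, hZcard])
            have h4 : Z ≤ K := by
              rw [← h3]
              exact inf_le_right
            exact hcK (h4 (Subgroup.mem_zpowers _))
        have h5 : (b i)⁻¹ * ev (MonoidHom.id P) x (w i) ∈ Z ⊓ K := ⟨hx3 i, hx4 i⟩
        rw [hdis, Subgroup.mem_bot] at h5
        exact (inv_mul_eq_one.1 h5).symm

end

end P174u
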